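import Crest.Agent.X37.Gr.Of
import Crest.Agent.X37.Solv

/-!
# Row 37: the orientation test (pebble game) and the greedy statement
-/

set_option autoImplicit false

namespace Crest.Agent.X37.Gr.Peb

open Finset Crest.Agent.Lib.PT Crest.Agent.X37.IO

abbrev Or := List (ℕ × ℕ)

/-- the number of edges with tail `v` -/
def load (o : Or) (v : ℕ) : ℕ := o.countP fun e => decide (e.1 = v)

/-- total overload -/
def exc (n : ℕ) (cap : ℕ → ℕ) (o : Or) : ℕ := ∑ v ∈ range n, (load o v - cap v)

/-- `o` is a re-orientation of `F` -/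
def Eqv (n : ℕ) (F o : Or) : Prop :=
  (∀ S, insL o S = insL F S) ∧ sz o = sz F ∧ o.length = F.length ∧ ∀ e ∈ o, e.1 < n ∧ e.2 < n

def Hall (n : ℕ) (cap : ℕ → ℕ) (F : Or) : Prop := ∀ S ⊆ range n, insL F S ≤ ∑ v ∈ S, cap v

/-- reverse one copy of the edge `e` -/
def flip (T : Or) (e : ℕ × ℕ) : Or := (e.2, e.1) :: T.erase e

def keys (vis : List (ℕ × Or)) : List ℕ := vis.map Prod.fst

/-- the search starts at the overloaded vertices -/
def start (n : ℕ) (cap : ℕ → ℕ) (o : Or) : Or × List (ℕ × Or) :=
  (o, ((List.range n).filter fun r => decide (cap r < load o r)).map fun r => (r, o))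

def step (n : ℕ) (cap : ℕ → ℕ) (c : Or × List (ℕ × Or)) : Or × List (ℕ × Or) :=
  (c.2.find? fun p => decide (load c.1 p.1 < cap p.1)).elim
    ((c.1.find? fun e => decide (e.1 ∈ keys c.2 ∧ e.2 ∉ keys c.2)).elim c fun e =>
      (c.1, (e.2, flip ((c.2.lookup e.1).getD []) e) :: c.2))
    fun p => start n cap p.2

theorem sum_load (o : Or) (S : Finset ℕ) :
    ∑ v ∈ S, load o v = o.countP fun e => decide (e.1 ∈ S) := by
  induction o with
  | nil => simp [load]
  | cons e o ih =>
    simp only [load, List.countP_cons, decide_eq_true_eq, Finset.sum_add_distrib] at ih ⊢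
    rw [ih, Finset.sum_ite_eq]

theorem insL_le (o : Or) (S : Finset ℕ) : insL o S ≤ ∑ v ∈ S, load o v := by
  rw [sum_load]
  exact List.countP_mono_left fun e _ h => by simp only [decide_eq_true_eq] at h ⊢; exact h.1

theorem le_insL {o : Or} {S : Finset ℕ} (h : ∀ e ∈ o, e.1 ∈ S → e.2 ∈ S) :
    ∑ v ∈ S, load o v ≤ insL o S := by
  rw [sum_load]
  exact List.countP_mono_left fun e he h1 => by
    simp only [decide_eq_true_eq] at h1 ⊢; exact ⟨h1, h e he h1⟩

theorem exc_le (n : ℕ) (cap : ℕ → ℕ) (o : Or) : exc n cap o ≤ o.length :=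
  le_trans (Finset.sum_le_sum fun _ _ => Nat.sub_le _ _)
    ((sum_load o _).trans_le List.countP_le_length)

variable {n : ℕ} {cap : ℕ → ℕ} {F o T : Or}

theorem load_flip {e : ℕ × ℕ} (he : e ∈ T) (v : ℕ) :
    load (flip T e) v + (if e.1 = v then 1 else 0) = load T v + if e.2 = v then 1 else 0 := by
  have := (List.perm_cons_erase he).countP_eq fun e => decide (e.1 = v)
  simp only [load, flip, List.countP_cons, decide_eq_true_eq] at this ⊢
  omega

theorem Eqv.flip (h : Eqv n F T) {e : ℕ × ℕ} (he : e ∈ T) : Eqv n F (flip T e) := by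
  obtain ⟨h1, h2, h3, h4⟩ := h
  have hp := List.perm_cons_erase he
  refine ⟨fun S => ?_, ?_, ?_, fun f hf => ?_⟩
  · rw [← h1 S]
    have := hp.countP_eq fun e => decide (e.1 ∈ S ∧ e.2 ∈ S)
    simp only [insL, Peb.flip, List.countP_cons, decide_eq_true_eq] at this ⊢
    rw [this, if_congr and_comm rfl rfl]
  · rw [← h2, PT.sz_perm hp, Peb.flip, sz_cons, sz_cons, sz_prod e, sz_mk]; omega
  · rw [← h3, hp.length_eq]; rfl
  · rcases List.mem_cons.1 hf with rfl | hf
    · exact (h4 e he).symm
    · exact h4 f (List.mem_of_mem_erase hf)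

theorem exc_lt {r w : ℕ} (hr : r < n) (h1 : cap r < load o r) (h2 : load o w < cap w)
    (h : ∀ v, load T v + (if r = v then 1 else 0) = load o v + if w = v then 1 else 0) :
    exc n cap T < exc n cap o := by
  refine Finset.sum_lt_sum (fun v _ => ?_) ⟨r, Finset.mem_range.2 hr, ?_⟩
  · have := h v
    split_ifs at this with h3 h4 h4
    · omega
    · omega
    · subst h4; omega
    · omega
  · have := h r
    rw [if_pos rfl, if_neg (by rintro rfl; omega)] at this
    omega

/-- the invariant of the search -/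
structure Inv (n : ℕ) (cap : ℕ → ℕ) (F : Or) (c : Or × List (ℕ × Or)) : Prop where
  eqv : Eqv n F c.1
  nodup : (keys c.2).Nodup
  lt : ∀ w ∈ keys c.2, w < n
  root : ∀ r < n, cap r < load c.1 r → r ∈ keys c.2
  mem : ∀ p ∈ c.2, Eqv n F p.2 ∧ (∀ e ∈ c.1, e.2 ∉ keys c.2 → e ∈ p.2) ∧
    ∃ r < n, cap r < load c.1 r ∧ ∀ v, load p.2 v + (if r = v then 1 else 0) =
      load c.1 v + if p.1 = v then 1 else 0

theorem keys_start : keys (start n cap o).2 =
    (List.range n).filter fun r => decide (cap r < load o r) := by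
  simp [keys, start, Function.comp_def]

theorem inv_start (h : Eqv n F o) : Inv n cap F (start n cap o) := by
  refine ⟨h, ?_, fun w hw => ?_, fun r h1 h2 => ?_, fun p hp => ?_⟩
  · rw [keys_start]; exact List.nodup_range.filter _
  · rw [keys_start] at hw; exact List.mem_range.1 (List.mem_filter.1 hw).1
  · rw [keys_start]; exact List.mem_filter.2 ⟨List.mem_range.2 h1, decide_eq_true h2⟩
  · obtain ⟨r, hr, rfl⟩ := List.mem_map.1 hp
    obtain ⟨h1, h2⟩ := List.mem_filter.1 hr
    exact ⟨h, fun e he _ => he, r, List.mem_range.1 h1, of_decide_eq_true h2, fun _ => rfl⟩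

theorem Inv.length_le {c : Or × List (ℕ × Or)} (h : Inv n cap F c) : c.2.length ≤ n := by
  have := (List.subperm_of_subset h.nodup fun w hw => List.mem_range.2 (h.lt w hw)).length_le
  simpa [keys] using this

theorem lookup_mem {vis : List (ℕ × Or)} {w : ℕ} (h : w ∈ keys vis) :
    (w, (vis.lookup w).getD []) ∈ vis := by
  induction vis with
  | nil => simp [keys] at h
  | cons p vis ih =>
    obtain ⟨a, b⟩ := p
    by_cases h1 : w = a
    · subst h1; simp
    · have h2 : (w == a) = false := by simpa using h1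
      rw [List.lookup_cons, h2]
      exact List.mem_cons_of_mem _ (ih (by simpa [keys, h1] using h))

/-- the potential -/
def pot (n : ℕ) (cap : ℕ → ℕ) (c : Or × List (ℕ × Or)) : ℕ :=
  exc n cap c.1 * (n + 1) + (n - c.2.length)

theorem Inv.step {c : Or × List (ℕ × Or)} (h : Inv n cap F c) :
    Inv n cap F (step n cap c) ∧ (c.2 = [] → step n cap c = c) ∧
      (Hall n cap F → c.2 ≠ [] → pot n cap (step n cap c) < pot n cap c) := by
  unfold Peb.step
  cases h1 : c.2.find? fun p => decide (load c.1 p.1 < cap p.1) with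
  | some p =>
    have h2 := List.mem_of_find?_eq_some h1
    have h3 : load c.1 p.1 < cap p.1 := by simpa using List.find?_some h1
    obtain ⟨h4, -, r, h5, h6, h7⟩ := h.mem p h2
    refine ⟨inv_start h4, fun h8 => by simp [h8] at h2, fun _ _ => ?_⟩
    have h8 := exc_lt h5 h6 h3 h7
    have h9 := Nat.mul_le_mul_right (n + 1) (Nat.succ_le_of_lt h8)
    simp only [Option.elim_some, pot, start, Nat.succ_mul] at h9 ⊢
    omega
  | none =>
    cases h2 : c.1.find? fun e => decide (e.1 ∈ keys c.2 ∧ e.2 ∉ keys c.2) with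
    | some e =>
      have h3 := List.mem_of_find?_eq_some h2
      obtain ⟨h4, h5⟩ : e.1 ∈ keys c.2 ∧ e.2 ∉ keys c.2 := by simpa using List.find?_some h2
      obtain ⟨h6, h7, r, h8, h9, h10⟩ := h.mem _ (lookup_mem h4)
      have h11 := h7 e h3 h5
      have hI : Inv n cap F (c.1, (e.2, flip ((c.2.lookup e.1).getD []) e) :: c.2) := by
        refine ⟨h.eqv, List.nodup_cons.2 ⟨h5, h.nodup⟩, fun w hw => ?_,
          fun r h12 h13 => List.mem_cons_of_mem _ (h.root r h12 h13), fun p hp => ?_⟩
        · rcases List.mem_cons.1 hw with rfl | hw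
          · exact (h.eqv.2.2.2 e h3).2
          · exact h.lt w hw
        · rcases List.mem_cons.1 hp with rfl | hp
          · refine ⟨h6.flip h11, fun f hf h12 => ?_, r, h8, h9, fun v => ?_⟩
            · obtain ⟨h13, h14⟩ := not_or.1 (List.mem_cons.not.1 h12)
              exact List.mem_cons_of_mem _ ((List.mem_erase_of_ne
                (by rintro rfl; exact h13 rfl)).2 (h7 f hf h14))
            · have := load_flip h11 v
              have := h10 v
              simp only at *
              omega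
          · obtain ⟨h12, h13, h14⟩ := h.mem p hp
            exact ⟨h12, fun f hf h15 => h13 f hf fun h16 => h15 (List.mem_cons_of_mem _ h16), h14⟩
      refine ⟨hI, fun h12 => by simp [h12, keys] at h4, fun _ _ => ?_⟩
      have := hI.length_le
      simp only [Option.elim_some, Option.elim_none, pot, List.length_cons] at this ⊢
      omega
    | none =>
      refine ⟨h, fun _ => rfl, fun hH h3 => ?_⟩
      exfalso
      obtain ⟨p, hp⟩ := List.exists_mem_of_ne_nil _ h3
      obtain ⟨-, -, r, h4, h5, -⟩ := h.mem p hp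
      have h6 := hH (keys c.2).toFinset fun w hw =>
        Finset.mem_range.2 (h.lt w (List.mem_toFinset.1 hw))
      have h7 : ∑ v ∈ (keys c.2).toFinset, load c.1 v ≤ insL c.1 (keys c.2).toFinset :=
        le_insL fun e he h8 => by
          have := List.find?_eq_none.1 h2 e he
          simp only [decide_eq_true_eq, not_and, not_not] at this
          exact List.mem_toFinset.2 (this (List.mem_toFinset.1 h8))
      have h8 : ∑ v ∈ (keys c.2).toFinset, cap v < ∑ v ∈ (keys c.2).toFinset, load c.1 v := by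
        refine Finset.sum_lt_sum (fun v hv => ?_) ⟨r, List.mem_toFinset.2 (h.root r h4 h5), h5⟩
        obtain ⟨q, hq, rfl⟩ := List.mem_map.1 (List.mem_toFinset.1 hv)
        simpa using List.find?_eq_none.1 h1 q hq
      rw [h.eqv.1] at h7
      omega

theorem Inv.hall {c : Or × List (ℕ × Or)} (h : Inv n cap F c) (h1 : c.2 = []) : Hall n cap F :=
  fun S hS => by
    rw [← h.eqv.1]
    refine (insL_le _ _).trans (Finset.sum_le_sum fun v hv => not_lt.1 fun h2 => ?_)
    have := h.root v (Finset.mem_range.1 (hS hv)) h2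
    simp [h1, keys] at this

theorem Inv.sz_le {c : Or × List (ℕ × Or)} (h : Inv n cap F c) :
    sz c ≤ sz F + n * (4 * n + sz F + 3) + 2 := by
  have h1 : sz c.2 ≤ c.2.length * (4 * n + sz F + 3) + 1 :=
    sz_list_le (B := 4 * n + sz F + 2) fun p hp => by
    have h2 := h.lt p.1 (List.mem_map_of_mem hp)
    have h3 := sz_nat_le_self p.1
    rw [sz_prod, (h.mem p hp).1.2.1]
    omega
  have h2 := Nat.mul_le_mul_right (4 * n + sz F + 3) h.length_le
  rw [sz_prod, h.eqv.2.1]
  omega

/-- **The orientation test** is solvable in polynomial time. -/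
theorem hall_solvable {α : Type} [Enc α] {n : α → ℕ} {cap : α → ℕ → ℕ} {F : α → Or} (hn : PT n)
    (hb : PB n) (hc : PT fun p : α × ℕ => cap p.1 p.2) (hF : PT F) :
    Solvable (fun a => ∀ e ∈ F a, e.1 < n a ∧ e.2 < n a)
      fun a (b : Bool) => b = true ↔ Hall (n a) (cap a) (F a) := by
  have hs : ∀ {β : Type} [Enc β] {g : β → α} {o : β → Or}, PT g → PT o →
      PT fun b => start (n (g b)) (cap (g b)) (o b) := fun {β} _ {g} {o} hg ho => by
    have h1 : PT fun b => n (g b) := hn.comp hg
    have h2 : PB fun b => n (g b) := hb.comp hg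
    have h3 : PT fun p : β × ℕ => cap (g p.1) p.2 :=
      hc.comp_eq (fun p : β × ℕ => (g p.1, p.2)) (by fun_prop)
    unfold start load
    fun_prop
  have hstep : PT fun p : α × Or × List (ℕ × Or) => step (n p.1) (cap p.1) p.2 := by
    unfold step
    refine PT.option_elim ?_ ?_ (hs (g := fun q : (α × Or × List (ℕ × Or)) × ℕ × Or => q.1.1)
      (by fun_prop) (by fun_prop))
    · have h3 : PT fun q : (α × Or × List (ℕ × Or)) × ℕ × Or => cap q.1.1 q.2.1 :=
        hc.comp_eq (fun q : (α × Or × List (ℕ × Or)) × ℕ × Or => (q.1.1, q.2.1)) (by fun_prop)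
      unfold load
      fun_prop
    · unfold keys flip
      fun_prop
  obtain ⟨f, hf, h⟩ := Solvable.iter (V := fun a => ∀ e ∈ F a, e.1 < n a ∧ e.2 < n a)
    (fun a k c => Inv (n a) (cap a) (F a) c ∧ (Hall (n a) (cap a) (F a) → c.2 = [] ∨
      pot (n a) (cap a) c + k < ((F a).length + 1) * (n a + 1)))
    (n := fun a => ((F a).length + 1) * (n a + 1)) (by fun_prop) (by fun_prop)
    ⟨fun a => start (n a) (cap a) (F a), hs PT.id hF, fun a ha =>
      ⟨inv_start ⟨fun _ => rfl, rfl, rfl, ha⟩, fun _ => Or.inr (by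
        have := Nat.mul_le_mul_right (n a + 1) (exc_le (n a) (cap a) (F a))
        simp only [pot, start, Nat.succ_mul]
        omega)⟩⟩
    hstep (fun a k c _ _ h => by
      obtain ⟨h1, h2, h3⟩ := h.1.step
      refine ⟨h1, fun hH => ?_⟩
      by_cases h4 : c.2 = []
      · exact Or.inl (by rw [h2 h4]; exact h4)
      · have := h3 hH h4
        have := (h.2 hH).resolve_left h4
        exact Or.inr (by omega))
    (B := fun a => sz (F a) + n a * (4 * n a + sz (F a) + 3) + 2) (by fun_prop)
    fun a k c _ _ h => h.1.sz_le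
  refine ⟨fun a => (f a).2.isEmpty, by fun_prop, fun a ha => ?_⟩
  exact List.isEmpty_iff.trans
    ⟨(h a ha).1.hall, fun hH => ((h a ha).2 hH).resolve_right (by omega)⟩

/-- capacities for testing the edge `u v` -/
def capT (k u v w : ℕ) : ℕ := if w = v then 0 else if w = u then k - 1 else k

theorem sum_capT {k u v : ℕ} (hk : 1 ≤ k) (huv : u ≠ v) (S : Finset ℕ) :
    ∑ w ∈ S, capT k u v w + (if v ∈ S then k else 0) + (if u ∈ S then 1 else 0) = k * S.card := by
  rw [← Finset.sum_ite_eq' S v fun _ => k, ← Finset.sum_ite_eq' S u fun _ => 1,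
    ← Finset.sum_add_distrib, ← Finset.sum_add_distrib, Finset.card_eq_sum_ones, Finset.mul_sum]
  refine Finset.sum_congr rfl fun w _ => ?_
  unfold capT
  split_ifs <;> omega

theorem testStatement : TestStatement := by
  obtain ⟨t, ht, h⟩ := hall_solvable (α := Un × ℕ × List (ℕ × ℕ) × ℕ × ℕ) (n := fun a => a.1.n)
    (cap := fun a => capT a.2.1 a.2.2.2.1 a.2.2.2.2) (F := fun a => a.2.2.1) (by fun_prop)
    (by fun_prop) (by unfold capT; fun_prop) (by fun_prop)
  refine ⟨t, ht, fun n k hk F u v hF _ _ huv hs => ?_⟩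
  refine (h (⟨n⟩, k, F, u, v) fun e he => ⟨(hF e he).1, (hF e he).2.1⟩).trans
    ⟨fun hH S hS h1 h2 => ?_, fun hH S hS => ?_⟩
  · have h3 : insL F S ≤ ∑ w ∈ S, capT k u v w := hH S hS
    have h4 := sum_capT hk huv S
    rw [if_pos h1, if_pos h2] at h4
    omega
  · show insL F S ≤ ∑ w ∈ S, capT k u v w
    have h4 := sum_capT hk huv S
    rcases S.eq_empty_or_nonempty with rfl | h5
    · simp [insL]
    · have h6 := hs S hS h5
      split_ifs at h4 with h7 h8 h8
      · have := hH S hS h8 h7; omega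
      all_goals omega

end Crest.Agent.X37.Gr.Peb

/-- **Step (0)** -/
theorem Crest.Agent.X37.Gr.greedyStatement : Crest.Agent.X37.Outer.GreedyStatement :=
  Crest.Agent.X37.Gr.greedy_of Crest.Agent.X37.Gr.Peb.testStatement
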