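import Mathlib

/-!
# Row 37: partition connectivity, its classes, sparse sets and the greedy specification

A multigraph is given by `src tgt : E → V`; sub-multigraphs are finite sets of edges.
Partitions are given by labellings `f : V → ι`.
-/

set_option autoImplicit false

namespace Crest.Agent.X37

open Finset

variable {V E : Type} [DecidableEq V] (src tgt : E → V)

/-- the edges of `A` with both ends in `S` -/
def inside (A : Finset E) (S : Finset V) : Finset E :=
  A.filter fun e => src e ∈ S ∧ tgt e ∈ S

/-- the edges of `A` with both ends in `S` whose ends have different labels -/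
def cross {ι : Type} [DecidableEq ι] (A : Finset E) (S : Finset V) (f : V → ι) : Finset E :=
  A.filter fun e => src e ∈ S ∧ tgt e ∈ S ∧ f (src e) ≠ f (tgt e)

/-- the graph induced by `A` on `S` is `k`-partition-connected: a partition of `S` into `q` parts
is crossed by at least `k (q - 1)` edges -/
def PCOn (k : ℝ) (A : Finset E) (S : Finset V) : Prop :=
  ∀ f : V → V, k * (((S.image f).card : ℝ) - 1) ≤ (cross src tgt A S f).card

/-- `A` is `k`-partition-connected -/
def PC [Fintype V] (k : ℝ) (A : Finset E) : Prop := PCOn src tgt k A univ

/-- `u` and `v` lie in a common `k`-partition-connected set (an equivalence relation) -/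
def Rel (k : ℝ) (A : Finset E) (u v : V) : Prop :=
  ∃ S : Finset V, u ∈ S ∧ v ∈ S ∧ PCOn src tgt k A S

open Classical in
/-- canonical label of the class of `v`: `cls u = cls v ↔ Rel u v` -/
noncomputable def cls (k : ℝ) (A : Finset E) (v : V) : V :=
  Classical.epsilon (p := fun w => Rel src tgt k A w v) (h := ⟨v⟩)

/-- the number of classes minus one -/
noncomputable def Ncl [Fintype V] (k : ℝ) (A : Finset E) : ℕ :=
  (univ.image (cls src tgt k A)).card - 1

/-- `(k, k)`-sparsity: a nonempty set `S` spans at most `k (|S| - 1)` edges -/
def Sparse (k : ℕ) (F : Finset E) : Prop :=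
  ∀ S : Finset V, S.Nonempty → (inside src tgt F S).card + k ≤ k * S.card

/-- `S` spans at least `k (|S| - 1)` edges of `F` -/
def Tight (k : ℕ) (F : Finset E) (S : Finset V) : Prop :=
  k * S.card ≤ (inside src tgt F S).card + k

/-- `F` is a result of the greedy algorithm on `G` for the lengths `l` in the `(k, k)`-sparsity
matroid: every rejected edge is spanned by a tight set of accepted edges that are not longer -/
structure IsGreedy {α : Type} [LinearOrder α] (k : ℕ) (l : E → α) (G F : Finset E) : Prop where
  subset : F ⊆ G
  sparse : Sparse src tgt k F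
  tight : ∀ e ∈ G, e ∉ F →
    ∃ S : Finset V, src e ∈ S ∧ tgt e ∈ S ∧ Tight src tgt k (F.filter fun f => l f ≤ l e) S

end Crest.Agent.X37
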