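import Crest.Agent.X37.Gr.Classes

/-!
# Row 37: consequences of the greedy specification
-/

set_option autoImplicit false
set_option linter.unusedSectionVars false

namespace Crest.Agent.X37

open Finset

variable {V E : Type} [DecidableEq V] {src tgt : E → V} {k : ℕ} {A B F G : Finset E}
  {S T : Finset V}

theorem Sparse.mono (h : Sparse src tgt k F) (hA : A ⊆ F) : Sparse src tgt k A := fun S hS =>
  le_trans (Nat.add_le_add_right (Finset.card_le_card (inside_mono hA Subset.rfl)) k) (h S hS)

theorem Tight.mono (h : Tight src tgt k A S) (hA : A ⊆ F) : Tight src tgt k F S :=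
  le_trans h (Nat.add_le_add_right (Finset.card_le_card (inside_mono hA Subset.rfl)) k)

theorem sparse_empty : Sparse src tgt k (∅ : Finset E) := fun S hS => by
  have : 1 ≤ S.card := Finset.card_pos.2 hS
  simpa [inside] using Nat.le_mul_of_pos_right k this

/-- the edges inside `S` cross the labelling or lie inside a part -/
theorem card_inside_le_add_sum {ι : Type} [DecidableEq ι] (f : V → ι) :
    (inside src tgt A S).card ≤ (cross src tgt A S f).card +
      ∑ c ∈ S.image f, (inside src tgt A (S.filter fun v => f v = c)).card := by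
  classical
  refine le_trans (Finset.card_le_card (t := cross src tgt A S f ∪ (S.image f).biUnion
    fun c => inside src tgt A (S.filter fun v => f v = c)) fun e he => ?_)
    ((Finset.card_union_le _ _).trans (Nat.add_le_add_left Finset.card_biUnion_le _))
  obtain ⟨h1, h2, h3⟩ := mem_inside.1 he
  by_cases h : f (src e) = f (tgt e)
  · exact Finset.mem_union_right _ (Finset.mem_biUnion.2 ⟨_, Finset.mem_image_of_mem f h3,
      mem_inside.2 ⟨h1, Finset.mem_filter.2 ⟨h2, h⟩, Finset.mem_filter.2 ⟨h3, rfl⟩⟩⟩)
  · exact Finset.mem_union_left _ (mem_cross.2 ⟨h1, h2, h3, h⟩)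

/-- a tight set of a sparse graph is partition-connected -/
theorem Sparse.pcOn (h : Sparse src tgt k F) (hS : Tight src tgt k F S) :
    PCOn src tgt (k : ℝ) F S := fun f => by
  have h1 := card_inside_le_add_sum (src := src) (tgt := tgt) (A := F) (S := S) f
  have h2 : ∑ c ∈ S.image f, ((inside src tgt F (S.filter fun v => f v = c)).card + k)
      ≤ ∑ c ∈ S.image f, k * (S.filter fun v => f v = c).card :=
    Finset.sum_le_sum fun c hc => h _ (by
      obtain ⟨v, hv, rfl⟩ := Finset.mem_image.1 hc
      exact ⟨v, Finset.mem_filter.2 ⟨hv, rfl⟩⟩)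
  rw [Finset.sum_add_distrib, ← Finset.mul_sum,
    ← Finset.card_eq_sum_card_fiberwise (fun v hv => Finset.mem_image_of_mem f hv),
    Finset.sum_const, smul_eq_mul] at h2
  have h3 : k * (S.image f).card ≤ (cross src tgt F S f).card + k := by
    unfold Tight at hS
    rw [mul_comm] at h2
    omega
  have h4 : (k : ℝ) * (S.image f).card ≤ (cross src tgt F S f).card + k := by exact_mod_cast h3
  linarith

/-- a partition-connected set is tight -/
theorem PCOn.tight (h : PCOn src tgt (k : ℝ) F S) : Tight src tgt k F S := by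
  have h1 := h id
  rw [Finset.image_id] at h1
  have h2 : ((cross src tgt F S id).card : ℝ) ≤ (inside src tgt F S).card :=
    Nat.cast_le.2 (Finset.card_le_card (cross_subset_inside _))
  have h3 : (k : ℝ) * S.card ≤ (inside src tgt F S).card + k := by linarith
  unfold Tight
  exact_mod_cast h3

/-- an edge of a sparse graph is not spanned by the other edges -/
theorem Sparse.not_rel (h : Sparse src tgt k F) (hA : A ⊆ F) {e : E} (he : e ∈ F) (heA : e ∉ A) :
    ¬ Rel src tgt (k : ℝ) A (src e) (tgt e) := by
  classical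
  rintro ⟨S, h1, h2, h3⟩
  have h4 := h3.tight
  have h5 := h S ⟨_, h1⟩
  have h6 : (insert e (inside src tgt A S)).card ≤ (inside src tgt F S).card :=
    Finset.card_le_card (Finset.insert_subset (mem_inside.2 ⟨he, h1, h2⟩)
      (inside_mono hA Subset.rfl))
  rw [Finset.card_insert_of_notMem fun h7 => heA (mem_inside.1 h7).1] at h6
  unfold Tight at h4
  omega

/-- a sparse graph has no loop -/
theorem Sparse.ne (h : Sparse src tgt k F) {e : E} (he : e ∈ F) : src e ≠ tgt e := fun h1 =>
  h.not_rel (Finset.empty_subset F) he (Finset.notMem_empty e) (h1 ▸ Rel.refl _)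

variable [Fintype V]

/-- edges spanned by `B` do not change the classes -/
theorem Rel.of_spanned {c : ℝ} (hB : ∀ e ∈ A, e ∉ B → Rel src tgt c B (src e) (tgt e)) {u v : V}
    (h : Rel src tgt c A u v) : Rel src tgt c B u v := by
  obtain ⟨S, h1, h2, h3⟩ := h
  by_contra hn
  have h4 : 2 ≤ (S.image (cls src tgt c B)).card := Finset.one_lt_card.2
    ⟨_, Finset.mem_image_of_mem _ h1, _, Finset.mem_image_of_mem _ h2,
      fun e => hn (cls_eq_iff.1 e)⟩
  have h5 := card_cross_cls_lt h4
  have h6 := h3 (cls src tgt c B)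
  have h7 : ((cross src tgt A S (cls src tgt c B)).card : ℝ)
      ≤ (cross src tgt B S (cls src tgt c B)).card := by
    refine Nat.cast_le.2 (Finset.card_le_card fun e he => ?_)
    obtain ⟨h8, h9, h10, h11⟩ := mem_cross.1 he
    refine mem_cross.2 ⟨?_, h9, h10, h11⟩
    by_contra h12
    exact h11 (cls_eq_iff.2 (hB e h8 h12))
  linarith

variable {α : Type} [LinearOrder α] {l : E → α}

omit [Fintype V] in
/-- a rejected edge is spanned by every set of accepted edges containing the shorter ones -/
theorem IsGreedy.rel_of_notMem (h : IsGreedy src tgt k l G F) {e : E} (he : e ∈ G) (heF : e ∉ F)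
    (hB : B ⊆ F) (hB' : ∀ f ∈ F, l f ≤ l e → f ∈ B) : Rel src tgt (k : ℝ) B (src e) (tgt e) := by
  obtain ⟨S, h1, h2, h3⟩ := h.tight e he heF
  exact ⟨S, h1, h2, (h.sparse.mono hB).pcOn (h3.mono fun f hf =>
    hB' f (Finset.mem_filter.1 hf).1 (Finset.mem_filter.1 hf).2)⟩

/-- the classes of a down-closed part of `G` are those of its accepted edges -/
theorem IsGreedy.rel_filter (h : IsGreedy src tgt k l G F) (p : E → Prop) [DecidablePred p]
    (hp : ∀ e f, p e → l f ≤ l e → p f) (hA : A ⊆ G) (hAp : ∀ e ∈ A, p e) {u v : V}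
    (huv : Rel src tgt (k : ℝ) A u v) : Rel src tgt (k : ℝ) (F.filter p) u v :=
  huv.of_spanned fun e he heF => h.rel_of_notMem (hA he)
    (fun h1 => heF (Finset.mem_filter.2 ⟨h1, hAp e he⟩)) (Finset.filter_subset _ _)
    fun f hf h2 => Finset.mem_filter.2 ⟨hf, hp e f (hAp e he) h2⟩

/-- (P5) an accepted edge is not spanned by strictly shorter edges of `G` -/
theorem IsGreedy.not_rel (h : IsGreedy src tgt k l G F) {e : E} (he : e ∈ F) (hA : A ⊆ G)
    (hl : ∀ a ∈ A, l a < l e) : ¬ Rel src tgt (k : ℝ) A (src e) (tgt e) := fun h1 =>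
  h.sparse.not_rel (Finset.filter_subset (fun f => l f < l e) F) he (by simp)
    (h.rel_filter (fun f => l f < l e) (fun _ _ h2 h3 => lt_of_le_of_lt h3 h2) hA hl h1)

/-- (P5) with a threshold -/
theorem IsGreedy.not_rel_filter (h : IsGreedy src tgt k l G F) {e : E} (he : e ∈ F) {s : α}
    (hs : s < l e) : ¬ Rel src tgt (k : ℝ) (G.filter fun f => l f ≤ s) (src e) (tgt e) :=
  h.not_rel he (Finset.filter_subset _ _) fun _ ha => (Finset.mem_filter.1 ha).2.trans_lt hs

/-- (P5) for labels -/
theorem IsGreedy.cls_ne (h : IsGreedy src tgt k l G F) {e : E} (he : e ∈ F) (hA : A ⊆ G)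
    (hl : ∀ a ∈ A, l a < l e) :
    cls src tgt (k : ℝ) A (src e) ≠ cls src tgt (k : ℝ) A (tgt e) := fun h1 =>
  h.not_rel he hA hl (cls_eq_iff.1 h1)

/-- the accepted edges have the classes of `G` -/
theorem IsGreedy.rel_iff (h : IsGreedy src tgt k l G F) {u v : V} :
    Rel src tgt (k : ℝ) F u v ↔ Rel src tgt (k : ℝ) G u v :=
  ⟨fun h1 => h1.mono h.subset, fun h1 => h1.of_spanned fun _ he heF =>
    h.rel_of_notMem he heF Subset.rfl fun _ hf _ => hf⟩

/-- the accepted edges of a `k`-partition-connected graph are `k`-partition-connected -/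
theorem IsGreedy.pc [Nonempty V] (h : IsGreedy src tgt k l G F) (hG : PC src tgt (k : ℝ) G) :
    PC src tgt (k : ℝ) F := pc_of_rel fun u v => h.rel_iff.2 (hG.rel u v)

/-- a sparse graph has at most `k (n - 1)` edges -/
theorem Sparse.card_le [Nonempty V] (h : Sparse src tgt k F) :
    F.card + k ≤ k * Fintype.card V := by
  have := h univ Finset.univ_nonempty
  rwa [show inside src tgt F univ = F by ext e; simp [mem_inside], Finset.card_univ] at this

/-- the greedy set of a `k`-partition-connected graph has exactly `k (n - 1)` edges -/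
theorem IsGreedy.card_eq [Nonempty V] (h : IsGreedy src tgt k l G F) (hG : PC src tgt (k : ℝ) G) :
    F.card + k = k * Fintype.card V := by
  have h1 : Tight src tgt k F univ := PCOn.tight (h.pc hG)
  unfold Tight at h1
  rw [show inside src tgt F univ = F by ext e; simp [mem_inside], Finset.card_univ] at h1
  exact le_antisymm h.sparse.card_le h1

omit [Fintype V] in
/-- change of the length scale (for instance the cast `ℚ → ℝ`) -/
theorem IsGreedy.congr {β : Type} [LinearOrder β] {l' : E → β} (h : IsGreedy src tgt k l G F)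
    (hl : ∀ e ∈ G, ∀ f ∈ G, l f ≤ l e → l' f ≤ l' e) : IsGreedy src tgt k l' G F :=
  ⟨h.subset, h.sparse, fun e he heF => by
    obtain ⟨S, h1, h2, h3⟩ := h.tight e he heF
    exact ⟨S, h1, h2, h3.mono fun f hf => Finset.mem_filter.2 ⟨(Finset.mem_filter.1 hf).1,
      hl e he f (h.subset (Finset.mem_filter.1 hf).1) (Finset.mem_filter.1 hf).2⟩⟩⟩

omit [Fintype V] in
theorem IsGreedy.cast {l : E → ℚ} (h : IsGreedy src tgt k l G F) :
    IsGreedy src tgt k (fun e => (l e : ℝ)) G F :=
  h.congr fun _ _ _ _ h1 => by exact_mod_cast h1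

end Crest.Agent.X37
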