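import Crest.Agent.X37.Gr.Greedy
import Crest.Agent.X37.IO.Defs

/-!
# Row 37: the greedy loop over an independence test
-/

set_option autoImplicit false

namespace Crest.Agent.X37.Gr

open Finset Crest.Agent.Lib.PT Crest.Agent.X37.IO

/-- the number of edges of the list with both ends in `S` -/
def insL (F : List (ℕ × ℕ)) (S : Finset ℕ) : ℕ := F.countP fun e => decide (e.1 ∈ S ∧ e.2 ∈ S)

/-- `t F u v` decides whether the edge `u v` can be added to the sparse list `F` -/
def TestSpec (n k : ℕ) (t : List (ℕ × ℕ) → ℕ → ℕ → Bool) : Prop :=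
  ∀ (F : List (ℕ × ℕ)) (u v : ℕ), Loopless n F → u < n → v < n → u ≠ v →
    (∀ S ⊆ range n, S.Nonempty → insL F S + k ≤ k * S.card) →
    (t F u v = true ↔ ∀ S ⊆ range n, u ∈ S → v ∈ S → insL F S + 1 + k ≤ k * S.card)

/-- the edges with the given indices -/
def pick (es : List (ℕ × ℕ)) (acc : List ℕ) : List (ℕ × ℕ) := acc.map fun j => es.getD j (0, 0)

/-- one round: try the edge with index `i` -/
def gstep (t : List (ℕ × ℕ) → ℕ → ℕ → Bool) (es : List (ℕ × ℕ)) (acc : List ℕ) (i : ℕ) : List ℕ :=
  if t (pick es acc) (es.getD i (0, 0)).1 (es.getD i (0, 0)).2 = true then i :: acc else acc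

/-- the accepted indices, for the processing order given by `r` -/
def greedyI (t : List (ℕ × ℕ) → ℕ → ℕ → Bool) (es : List (ℕ × ℕ)) (r : ℕ → ℕ → Prop)
    [DecidableRel r] : List ℕ :=
  ((List.range es.length).insertionSort r).foldl (gstep t es) []

/-- the accepted indices as a mask -/
def greedyM (t : List (ℕ × ℕ) → ℕ → ℕ → Bool) (es : List (ℕ × ℕ)) (r : ℕ → ℕ → Prop)
    [DecidableRel r] : List Bool :=
  (List.range es.length).map fun i => decide (i ∈ greedyI t es r)

theorem length_greedyM (t : List (ℕ × ℕ) → ℕ → ℕ → Bool) (es : List (ℕ × ℕ)) (r : ℕ → ℕ → Prop)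
    [DecidableRel r] : (greedyM t es r).length = es.length := by simp [greedyM]

/-- the set of edges with index in a list -/
def idx (m : ℕ) (acc : List ℕ) : Finset (Fin m) := univ.filter fun e => (e : ℕ) ∈ acc

variable {n k : ℕ} {es : List (ℕ × ℕ)}

theorem mem_idx {m : ℕ} {acc : List ℕ} {e : Fin m} : e ∈ idx m acc ↔ (e : ℕ) ∈ acc := by
  simp [idx]

theorem idx_cons {m : ℕ} (acc : List ℕ) (e : Fin m) :
    idx m ((e : ℕ) :: acc) = insert e (idx m acc) := by
  ext f; simp [mem_idx, Fin.val_inj]

theorem getD_fst (h : Loopless n es) (e : Fin es.length) :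
    (es.getD e (0, 0)).1 = srcF h e := by simp [srcF]

theorem getD_snd (h : Loopless n es) (e : Fin es.length) :
    (es.getD e (0, 0)).2 = tgtF h e := by simp [tgtF]

theorem inside_insert {V E : Type} [DecidableEq V] [DecidableEq E] {src tgt : E → V}
    {A : Finset E} {e : E} (he : e ∉ A) (S : Finset V) :
    (inside src tgt (insert e A) S).card =
      (inside src tgt A S).card + if src e ∈ S ∧ tgt e ∈ S then 1 else 0 := by
  unfold inside
  rw [Finset.filter_insert]
  split_ifs with h1
  · rw [Finset.card_insert_of_notMem fun h2 => he (Finset.mem_filter.1 h2).1]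
  · rfl

theorem insL_pick (h : Loopless n es) {acc : List ℕ} (h1 : acc.Nodup)
    (h2 : ∀ j ∈ acc, j < es.length) (S : Finset (Fin n)) :
    insL (pick es acc) (vals S) = (inside (srcF h) (tgtF h) (idx es.length acc) S).card := by
  induction acc with
  | nil => simp [insL, pick, idx, inside]
  | cons j acc ih =>
    obtain ⟨h3, h4⟩ := List.nodup_cons.1 h1
    have h5 := ih h4 fun i hi => h2 i (List.mem_cons_of_mem _ hi)
    have h6 := idx_cons acc (⟨j, h2 j List.mem_cons_self⟩ : Fin es.length)
    rw [h6, inside_insert (by simpa [mem_idx] using h3), ← h5]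
    have h7 := getD_fst h ⟨j, h2 j List.mem_cons_self⟩
    have h8 := getD_snd h ⟨j, h2 j List.mem_cons_self⟩
    simp only [insL, pick, List.map_cons, List.countP_cons, decide_eq_true_eq] at h7 h8 ⊢
    rw [h7, h8]
    simp only [val_mem_vals]

theorem loopless_pick (h : Loopless n es) {acc : List ℕ} (h2 : ∀ j ∈ acc, j < es.length) :
    Loopless n (pick es acc) := h.sublist fun e he => by
  obtain ⟨j, hj, rfl⟩ := List.mem_map.1 he
  rw [List.getD_eq_getElem _ _ (h2 j hj)]
  exact List.getElem_mem _

theorem card_vals (S : Finset (Fin n)) : (vals S).card = S.card := Finset.card_map _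

/-- the test on index lists -/
theorem TestSpec.idx {t : List (ℕ × ℕ) → ℕ → ℕ → Bool} (ht : TestSpec n k t) (h : Loopless n es)
    {acc : List ℕ} (h1 : acc.Nodup) (h2 : ∀ j ∈ acc, j < es.length)
    (h3 : Sparse (srcF h) (tgtF h) k (idx es.length acc)) (e : Fin es.length) :
    t (pick es acc) (es.getD e (0, 0)).1 (es.getD e (0, 0)).2 = true ↔
      ∀ S, srcF h e ∈ S → tgtF h e ∈ S →
        (inside (srcF h) (tgtF h) (idx es.length acc) S).card + 1 + k ≤ k * S.card := by
  rw [getD_fst h, getD_snd h, ht _ _ _ (loopless_pick h h2) (srcF h e).2 (tgtF h e).2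
    (fun h4 => srcF_ne_tgtF h e (Fin.ext h4))]
  · constructor
    · intro h4 S h5 h6
      have := h4 (vals S) (vals_subset S) (val_mem_vals.2 h5) (val_mem_vals.2 h6)
      rwa [insL_pick h h1 h2, card_vals] at this
    · intro h4 S hS h5 h6
      obtain ⟨S, rfl⟩ := exists_vals hS
      rw [insL_pick h h1 h2, card_vals]
      exact h4 S (val_mem_vals.1 h5) (val_mem_vals.1 h6)
  · intro S hS h4
    obtain ⟨S, rfl⟩ := exists_vals hS
    rw [insL_pick h h1 h2, card_vals]
    exact h3 S (Finset.map_nonempty.1 h4)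

/-- the loop invariant after the indices `pre` -/
structure Inv {α : Type} [LinearOrder α] (h : Loopless n es) (k : ℕ) (key : ℕ → α)
    (pre acc : List ℕ) : Prop where
  nodup : acc.Nodup
  sub : ∀ j ∈ acc, j ∈ pre
  sparse : Sparse (srcF h) (tgtF h) k (idx es.length acc)
  tight : ∀ e : Fin es.length, (e : ℕ) ∈ pre → (e : ℕ) ∉ acc → ∃ S, srcF h e ∈ S ∧ tgtF h e ∈ S ∧
    Tight (srcF h) (tgtF h) k ((idx es.length acc).filter fun f => key f ≤ key e) S

theorem Inv.step {α : Type} [LinearOrder α] {h : Loopless n es} {key : ℕ → α}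
    {t : List (ℕ × ℕ) → ℕ → ℕ → Bool} (ht : TestSpec n k t) {pre acc : List ℕ}
    (hI : Inv h k key pre acc) (h2 : ∀ j ∈ pre, j < es.length) (e : Fin es.length)
    (he : (e : ℕ) ∉ pre) (hk : ∀ j ∈ pre, key j ≤ key e) :
    Inv h k key (pre ++ [(e : ℕ)]) (gstep t es acc e) := by
  have h3 := ht.idx h hI.nodup (fun j hj => h2 j (hI.sub j hj)) hI.sparse e
  have h4 : (e : ℕ) ∉ acc := fun h5 => he (hI.sub _ h5)
  unfold gstep
  split_ifs with h5
  · refine ⟨List.nodup_cons.2 ⟨h4, hI.nodup⟩, fun j hj => ?_, fun S hS => ?_, fun f h6 h7 => ?_⟩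
    · rcases List.mem_cons.1 hj with rfl | hj
      · simp
      · exact List.mem_append_left _ (hI.sub j hj)
    · rw [idx_cons, inside_insert (mem_idx.not.2 h4)]
      split_ifs with h6
      · exact h3.1 h5 S h6.1 h6.2
      · exact hI.sparse S hS
    · obtain ⟨h8, h9⟩ := not_or.1 (List.mem_cons.not.1 h7)
      obtain ⟨S, h10, h11, h12⟩ := hI.tight f (by simpa [h8] using h6) h9
      refine ⟨S, h10, h11, h12.mono (Finset.filter_subset_filter _ ?_)⟩
      rw [idx_cons]; exact Finset.subset_insert _ _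
  · refine ⟨hI.nodup, fun j hj => List.mem_append_left _ (hI.sub j hj), hI.sparse,
      fun f h6 h7 => ?_⟩
    rcases List.mem_append.1 h6 with h8 | h8
    · exact hI.tight f h8 h7
    · obtain rfl : f = e := Fin.ext (by simpa using h8)
      rw [h3] at h5
      push Not at h5
      obtain ⟨S, h9, h10, h11⟩ := h5
      refine ⟨S, h9, h10, ?_⟩
      rw [Finset.filter_true_of_mem (s := idx es.length acc)
        fun g hg => hk g (hI.sub _ (mem_idx.1 hg))]
      unfold Tight
      omega

theorem inv_foldl {α : Type} [LinearOrder α] (h : Loopless n es) {key : ℕ → α}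
    {t : List (ℕ × ℕ) → ℕ → ℕ → Bool} (ht : TestSpec n k t) (pre : List ℕ) (h1 : pre.Nodup)
    (h2 : ∀ j ∈ pre, j < es.length) (h3 : pre.Pairwise fun i j => key i ≤ key j) :
    Inv h k key pre (pre.foldl (gstep t es) []) := by
  induction pre using List.reverseRecOn with
  | nil => exact ⟨List.nodup_nil, by simp, by simpa [idx] using sparse_empty, by simp⟩
  | append_singleton pre j ih =>
    rw [List.foldl_append, List.foldl_cons, List.foldl_nil]
    obtain ⟨h4, -, h5⟩ := List.nodup_append.1 h1
    obtain ⟨h6, -, h7⟩ := List.pairwise_append.1 h3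
    have h8 : ∀ i ∈ pre, i < es.length := fun i hi => h2 i (List.mem_append_left _ hi)
    exact (ih h4 h8 h6).step ht h8 ⟨j, h2 j (by simp)⟩ (fun h9 => h5 j h9 j (by simp) rfl)
      fun i hi => h7 i hi j (by simp)

/-- **Correctness of the greedy loop.** -/
theorem greedyM_spec {α : Type} [LinearOrder α] (h : Loopless n es) (key : ℕ → α)
    {t : List (ℕ × ℕ) → ℕ → ℕ → Bool} (ht : TestSpec n k t) :
    IsGreedy (srcF h) (tgtF h) k (fun e => key e) univ
      (univ.filter fun e : Fin es.length =>
        (greedyM t es fun i j => key i ≤ key j).getD e false = true) := by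
  have hp := List.perm_insertionSort (fun i j => key i ≤ key j) (List.range es.length)
  have : Std.Total fun i j => key i ≤ key j := ⟨fun i j => le_total _ _⟩
  have : IsTrans ℕ fun i j => key i ≤ key j := ⟨fun _ _ _ => le_trans⟩
  have hI := inv_foldl h (key := key) ht _ (hp.nodup_iff.2 List.nodup_range)
    (fun j hj => List.mem_range.1 (hp.mem_iff.1 hj)) (List.pairwise_insertionSort _ _)
  have e1 : (univ.filter fun e : Fin es.length =>
      (greedyM t es fun i j => key i ≤ key j).getD e false = true) =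
      idx es.length (greedyI t es fun i j => key i ≤ key j) := by
    ext e; simp [greedyM, mem_idx]
  rw [e1]
  exact ⟨Finset.subset_univ _, hI.sparse, fun e _ he =>
    hI.tight e (hp.mem_iff.2 (List.mem_range.2 e.2)) (mem_idx.not.1 he)⟩

/-! ### Polynomial time -/

variable {β : Type} [Enc β]

theorem greedyM_pt {t : β → List (ℕ × ℕ) → ℕ → ℕ → Bool} {es : β → List (ℕ × ℕ)}
    {r : β → ℕ → ℕ → Prop} [∀ a, DecidableRel (r a)]
    (ht : PT fun p : β × List (ℕ × ℕ) × ℕ × ℕ => t p.1 p.2.1 p.2.2.1 p.2.2.2) (hes : PT es)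
    (hr : PT fun p : β × ℕ × ℕ => r p.1 p.2.1 p.2.2) :
    PT fun a => greedyM (t a) (es a) (r a) := by
  have h1 : PT fun a => greedyI (t a) (es a) (r a) := by
    unfold greedyI
    refine PT.foldl_grow (f := fun a => gstep (t a) (es a)) (by fun_prop) (PT.const _) ?_
      (G := fun p => sz p.2 + 1) (by fun_prop) fun a c b _ => ?_
    · have h2 : PT fun p : β × List ℕ × ℕ => t p.1 (pick (es p.1) p.2.1)
          ((es p.1).getD p.2.2 (0, 0)).1 ((es p.1).getD p.2.2 (0, 0)).2 :=
        ht.comp_eq (fun p : β × List ℕ × ℕ => (p.1, pick (es p.1) p.2.1,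
          ((es p.1).getD p.2.2 (0, 0)).1, ((es p.1).getD p.2.2 (0, 0)).2))
          (by unfold pick; fun_prop)
      unfold gstep
      exact PT.ite h2.eq_true (by fun_prop) (by fun_prop)
    · unfold gstep
      split_ifs
      · simp; omega
      · omega
  unfold greedyM
  exact PT.map (f := fun a i => decide (i ∈ greedyI (t a) (es a) (r a))) (by fun_prop)
    (PT.decide' (PT.mem (h1.comp (PT.fst PT.id)) (PT.snd PT.id)))

end Crest.Agent.X37.Gr
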