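import Crest.Agent.X37.Gr.Loop
import Crest.Agent.X37.Outer.Defs

/-!
# Row 37: the greedy statement from an independence test
-/

set_option autoImplicit false

namespace Crest.Agent.X37.Gr

open Finset Crest.Agent.Lib.PT Crest.Agent.X37.IO

/-- a polynomial-time independence test for the `(k, k)`-sparsity matroid -/
def TestStatement : Prop :=
  ∃ t : Un × ℕ × List (ℕ × ℕ) × ℕ × ℕ → Bool, PT t ∧
    ∀ n k : ℕ, 1 ≤ k → TestSpec n k fun F u v => t (⟨n⟩, k, F, u, v)

theorem greedy_of (h : TestStatement) : Outer.GreedyStatement := by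
  obtain ⟨t, h1, h2⟩ := h
  refine ⟨fun a => greedyM (fun F u v => t (a.1, a.2.1, F, u, v)) a.2.2.1
    fun i j => a.2.2.2.getD i 0 ≤ a.2.2.2.getD j 0, ?_, fun n k es l h hk _ => ?_⟩
  · exact greedyM_pt (t := fun a : Un × ℕ × List (ℕ × ℕ) × List ℚ =>
      fun F u v => t (a.1, a.2.1, F, u, v))
      (r := fun a i j => a.2.2.2.getD i 0 ≤ a.2.2.2.getD j 0)
      (h1.comp (by fun_prop)) (by fun_prop) (by fun_prop)
  · exact greedyM_spec h (fun i => l.getD i 0) (h2 n k hk)

end Crest.Agent.X37.Gr
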