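import Crest.Agent.PVb.Lib.PT.All

/-!
# Row 37: the Hall test for orientations with bounded out-degrees (helper17)

`hallB n cap es` decides whether every set `S` of vertices spans at most `∑ v ∈ S, cap v` edges.
An orientation is a list of pairs (tail, head).  One arc is flipped at a time; the potential is
`(n + 2) * excess + (first layer that holds an overloaded vertex)`.
-/

set_option autoImplicit false

namespace Crest.Agent.X37.Gr

open Crest.Agent.Lib.PT

/-- the number of edges of the list with both ends in `S` -/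
def inL (es : List (ℕ × ℕ)) (S : Finset ℕ) : ℕ := es.countP fun e => decide (e.1 ∈ S ∧ e.2 ∈ S)

/-- out-degree -/
def outd (o : List (ℕ × ℕ)) (v : ℕ) : ℕ := o.countP fun e => decide (e.1 = v)

/-- one step of the backward search -/
def lstep (n : ℕ) (o : List (ℕ × ℕ)) (R : List ℕ) : List ℕ :=
  (List.range n).filter fun v => decide (v ∈ R) || o.any fun e => decide (e.1 = v) && decide (e.2 ∈ R)

/-- the free vertices -/
def lay0 (n : ℕ) (cap : List ℕ) (o : List (ℕ × ℕ)) : List ℕ :=
  (List.range n).filter fun v => decide (outd o v < cap.getD v 0)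

/-- the vertices that reach a free vertex by at most `j` arcs -/
def lay (n : ℕ) (cap : List ℕ) (o : List (ℕ × ℕ)) (j : ℕ) : List ℕ :=
  (lstep n o)^[j] (lay0 n cap o)

/-- layer `j` holds an overloaded vertex -/
def ovl (n : ℕ) (cap : List ℕ) (o : List (ℕ × ℕ)) (j : ℕ) : Bool :=
  (lay n cap o j).any fun v => decide (cap.getD v 0 < outd o v)

/-- total excess -/
def exc (n : ℕ) (cap : List ℕ) (o : List (ℕ × ℕ)) : ℕ :=
  ∑ v ∈ Finset.range n, (outd o v - cap.getD v 0)

/-- the number of layers without an overloaded vertex -/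
def lev (n : ℕ) (cap : List ℕ) (o : List (ℕ × ℕ)) : ℕ :=
  ∑ j ∈ Finset.range (n + 1), if ovl n cap o j = true then 0 else 1

/-- the potential -/
def pot (n : ℕ) (cap : List ℕ) (o : List (ℕ × ℕ)) : ℕ := (n + 2) * exc n cap o + lev n cap o

/-- reverse one arc -/
def flipArc (o : List (ℕ × ℕ)) (e : ℕ × ℕ) : List (ℕ × ℕ) := e.swap :: o.erase e

/-- the first flip that lowers the potential -/
def onext (n : ℕ) (cap : List ℕ) (o : List (ℕ × ℕ)) : List (ℕ × ℕ) :=
  ((o.map (flipArc o)).find? fun o' => decide (pot n cap o' < pot n cap o)).getD o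

/-- the final orientation -/
def orient (n : ℕ) (cap : List ℕ) (es : List (ℕ × ℕ)) : List (ℕ × ℕ) :=
  (onext n cap)^[(n + 2) * (es.length + 1)] es

/-- the Hall test -/
def hallB (n : ℕ) (cap : List ℕ) (es : List (ℕ × ℕ)) : Bool :=
  decide (exc n cap (orient n cap es) = 0)

variable {n : ℕ} {cap : List ℕ} {o : List (ℕ × ℕ)}

theorem mem_lstep {R : List ℕ} {v : ℕ} :
    v ∈ lstep n o R ↔ v < n ∧ (v ∈ R ∨ ∃ e ∈ o, e.1 = v ∧ e.2 ∈ R) := by
  simp only [lstep, List.mem_filter, List.mem_range, Bool.or_eq_true, decide_eq_true_eq,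
    List.any_eq_true, Bool.and_eq_true]

theorem mem_lay_zero {v : ℕ} : v ∈ lay n cap o 0 ↔ v < n ∧ outd o v < cap.getD v 0 := by
  simp only [lay, Function.iterate_zero, id, lay0, List.mem_filter, List.mem_range,
    decide_eq_true_eq]

theorem mem_lay_succ {j v : ℕ} :
    v ∈ lay n cap o (j + 1) ↔
      v < n ∧ (v ∈ lay n cap o j ∨ ∃ e ∈ o, e.1 = v ∧ e.2 ∈ lay n cap o j) := by
  rw [lay, Function.iterate_succ_apply', mem_lstep]; rfl

theorem lt_of_mem_lay {j v : ℕ} (h : v ∈ lay n cap o j) : v < n := by
  cases j with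
  | zero => exact (mem_lay_zero.1 h).1
  | succ j => exact (mem_lay_succ.1 h).1

theorem lay_mono {i j v : ℕ} (hij : i ≤ j) (h : v ∈ lay n cap o i) : v ∈ lay n cap o j := by
  induction j, hij using Nat.le_induction with
  | base => exact h
  | succ j _ ih => exact mem_lay_succ.2 ⟨lt_of_mem_lay ih, Or.inl ih⟩

theorem lay_sublist (j : ℕ) : (lay n cap o j).Sublist (List.range n) := by
  cases j with
  | zero => exact List.filter_sublist
  | succ j => rw [lay, Function.iterate_succ_apply']; exact List.filter_sublist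

theorem ovl_iff {j : ℕ} :
    ovl n cap o j = true ↔ ∃ v ∈ lay n cap o j, cap.getD v 0 < outd o v := by
  simp only [ovl, List.any_eq_true, decide_eq_true_eq]

theorem lev_le (n : ℕ) (cap : List ℕ) (o : List (ℕ × ℕ)) : lev n cap o ≤ n + 1 := by
  calc lev n cap o ≤ ∑ _j ∈ Finset.range (n + 1), 1 :=
        Finset.sum_le_sum fun j _ => by split_ifs <;> omega
    _ = n + 1 := by simp

theorem lev_le_of_ovl {i : ℕ} (h : ovl n cap o i = true) : lev n cap o ≤ i := by
  calc lev n cap o ≤ ∑ j ∈ Finset.range (n + 1), if j ∈ Finset.range i then 1 else 0 := by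
        refine Finset.sum_le_sum fun j _ => ?_
        by_cases hj : j < i
        · simp only [Finset.mem_range, hj, if_true]; split_ifs <;> omega
        · obtain ⟨v, hv, hv'⟩ := ovl_iff.1 h
          rw [if_pos (ovl_iff.2 ⟨v, lay_mono (not_lt.1 hj) hv, hv'⟩)]
          exact Nat.zero_le _
    _ ≤ i := by
        rw [← Finset.sum_filter, Finset.sum_const, smul_eq_mul, mul_one]
        exact (Finset.card_le_card fun j hj => (Finset.mem_filter.1 hj).2).trans (by simp)

theorem lt_lev_of_not_ovl {i : ℕ} (hi : i ≤ n) (h : ¬ovl n cap o i = true) :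
    i < lev n cap o := by
  calc i < ∑ _j ∈ Finset.range (i + 1), 1 := by simp
    _ = ∑ j ∈ Finset.range (i + 1), if ovl n cap o j = true then 0 else 1 := by
        refine Finset.sum_congr rfl fun j hj => ?_
        rw [if_neg]
        intro h'
        obtain ⟨v, hv, hv'⟩ := ovl_iff.1 h'
        exact h (ovl_iff.2 ⟨v, lay_mono (Nat.lt_succ_iff.1 (Finset.mem_range.1 hj)) hv, hv'⟩)
    _ ≤ lev n cap o :=
        Finset.sum_le_sum_of_subset (Finset.range_subset_range.2 (by omega))

theorem countP_flipArc {e : ℕ × ℕ} (he : e ∈ o) (p : ℕ × ℕ → Bool) :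
    (flipArc o e).countP p + (if p e = true then 1 else 0) =
      o.countP p + if p e.swap = true then 1 else 0 := by
  rw [flipArc, List.countP_cons, (List.perm_cons_erase he).countP_eq p, List.countP_cons]
  omega

theorem outd_flipArc {e : ℕ × ℕ} (he : e ∈ o) (v : ℕ) :
    outd (flipArc o e) v + (if e.1 = v then 1 else 0) = outd o v + if e.2 = v then 1 else 0 := by
  simpa [outd] using countP_flipArc he fun e => decide (e.1 = v)

theorem inL_flipArc {e : ℕ × ℕ} (he : e ∈ o) (S : Finset ℕ) : inL (flipArc o e) S = inL o S := by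
  have := countP_flipArc he fun e => decide (e.1 ∈ S ∧ e.2 ∈ S)
  simp only [Prod.fst_swap, Prod.snd_swap, decide_eq_true_eq, and_comm (a := e.2 ∈ S)] at this
  simp only [inL]
  omega

theorem mem_flipArc {e f : ℕ × ℕ} (hf : f ∈ o) (hne : f ≠ e) : f ∈ flipArc o e :=
  List.mem_cons_of_mem _ ((List.mem_erase_of_ne hne).2 hf)

/-- the excess after a flip -/
theorem exc_flipArc {e : ℕ × ℕ} (he : e ∈ o) (h1 : e.1 < n) (h2 : e.2 < n) (hne : e.1 ≠ e.2)
    (hx : cap.getD e.1 0 < outd o e.1) :
    exc n cap (flipArc o e) + 1 =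
      exc n cap o + if cap.getD e.2 0 ≤ outd o e.2 then 1 else 0 := by
  have key : ∀ v, (outd (flipArc o e) v - cap.getD v 0) + (if e.1 = v then 1 else 0) =
      (outd o v - cap.getD v 0) +
        if e.2 = v then (if cap.getD e.2 0 ≤ outd o e.2 then 1 else 0) else 0 := by
    intro v
    have := outd_flipArc he v
    by_cases a : e.1 = v
    · subst a
      simp only [if_true, if_neg (Ne.symm hne)] at this ⊢
      omega
    · by_cases b : e.2 = v
      · subst b
        simp only [if_true, if_neg a] at this ⊢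
        split_ifs <;> omega
      · simp only [if_neg a, if_neg b] at this ⊢
        omega
  have := Finset.sum_congr (s₁ := Finset.range n) rfl fun v _ => key v
  simpa [Finset.sum_add_distrib, Finset.sum_ite_eq, h1, h2, exc] using this

/-- if an overloaded vertex reaches a free vertex, some flip lowers the potential -/
theorem exists_flip (h : ovl n cap o n = true) :
    ∃ e ∈ o, pot n cap (flipArc o e) < pot n cap o := by
  classical
  have hex : ∃ j, ovl n cap o j = true := ⟨n, h⟩
  have hjn : Nat.find hex ≤ n := Nat.find_min' hex h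
  obtain ⟨x, hx, hx'⟩ := ovl_iff.1 (Nat.find_spec hex)
  cases hj : Nat.find hex with
  | zero =>
    rw [hj, mem_lay_zero] at hx
    omega
  | succ i =>
    have hi : ¬ovl n cap o i = true := Nat.find_min hex (by omega)
    have hxi : x ∉ lay n cap o i := fun h' => hi (ovl_iff.2 ⟨x, h', hx'⟩)
    rw [hj, mem_lay_succ] at hx
    obtain ⟨hxn, hx | ⟨e, he, rfl, hy⟩⟩ := hx
    · exact absurd hx hxi
    have hne : e.1 ≠ e.2 := fun h' => hxi (h' ▸ hy)
    have hexc := exc_flipArc he hxn (lt_of_mem_lay hy) hne hx'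
    refine ⟨e, he, ?_⟩
    by_cases hc : cap.getD e.2 0 ≤ outd o e.2
    · rw [if_pos hc] at hexc
      have hsub : ∀ t, t ≤ i → ∀ v ∈ lay n cap o t, v ∈ lay n cap (flipArc o e) t := by
        intro t
        induction t with
        | zero =>
          intro _ v hv
          rw [mem_lay_zero] at hv ⊢
          have := outd_flipArc he v
          have b : e.2 ≠ v := fun b => by subst b; omega
          rw [if_neg b] at this
          exact ⟨hv.1, by omega⟩
        | succ t ih =>
          intro ht v hv
          have hvx : v ≠ e.1 := fun b => hxi (b ▸ lay_mono ht hv)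
          rw [mem_lay_succ] at hv ⊢
          refine ⟨hv.1, ?_⟩
          obtain hv | ⟨f, hf, rfl, hw⟩ := hv.2
          · exact Or.inl (ih (by omega) _ hv)
          · exact Or.inr ⟨f, mem_flipArc hf (fun b => hvx (by rw [b])), rfl, ih (by omega) _ hw⟩
      have h1 : lev n cap (flipArc o e) ≤ i := by
        refine lev_le_of_ovl (ovl_iff.2 ⟨e.2, hsub i le_rfl _ hy, ?_⟩)
        have := outd_flipArc he e.2
        rw [if_neg hne, if_pos rfl] at this
        omega
      have h2 : i < lev n cap o := lt_lev_of_not_ovl (by omega) hi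
      have h3 : exc n cap (flipArc o e) = exc n cap o := by omega
      rw [pot, pot, h3]
      omega
    · rw [if_neg hc] at hexc
      have h1 := lev_le n cap (flipArc o e)
      have h3 : exc n cap o = exc n cap (flipArc o e) + 1 := by omega
      rw [pot, pot, h3, Nat.mul_succ]
      omega

theorem countP_tail (o : List (ℕ × ℕ)) (S : Finset ℕ) :
    (o.countP fun e => decide (e.1 ∈ S)) = ∑ v ∈ S, outd o v := by
  induction o with
  | nil => simp [outd]
  | cons e o ih =>
    simp only [outd, List.countP_cons, decide_eq_true_eq, Finset.sum_add_distrib,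
      Finset.sum_ite_eq] at ih ⊢
    rw [ih]

/-- no excess: the Hall condition holds -/
theorem hall_of_exc (h : exc n cap o = 0) {S : Finset ℕ} (hS : S ⊆ Finset.range n) :
    inL o S ≤ ∑ v ∈ S, cap.getD v 0 := by
  calc inL o S ≤ o.countP fun e => decide (e.1 ∈ S) :=
        List.countP_mono_left fun e _ he => by
          simp only [decide_eq_true_eq] at he ⊢; exact he.1
    _ = ∑ v ∈ S, outd o v := countP_tail o S
    _ ≤ _ := Finset.sum_le_sum fun v hv => by
        have := Finset.sum_eq_zero_iff.1 h v (hS hv)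
        omega

theorem exists_stable (n : ℕ) (cap : List ℕ) (o : List (ℕ × ℕ)) :
    ∃ j, j ≤ n ∧ ∀ v ∈ lay n cap o (j + 1), v ∈ lay n cap o j := by
  by_contra hc
  push Not at hc
  have key : ∀ j, j ≤ n + 1 → j ≤ (lay n cap o j).toFinset.card := by
    intro j
    induction j with
    | zero => intro _; exact Nat.zero_le _
    | succ j ih =>
      intro hj
      obtain ⟨v, hv, hv'⟩ := hc j (by omega)
      refine Nat.succ_le_of_lt ((ih (by omega)).trans_lt (Finset.card_lt_card ⟨?_, ?_⟩))
      · intro w hw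
        exact List.mem_toFinset.2 (lay_mono (Nat.le_succ j) (List.mem_toFinset.1 hw))
      · intro h'
        exact hv' (List.mem_toFinset.1 (h' (List.mem_toFinset.2 hv)))
  have h1 := key (n + 1) le_rfl
  have h2 : (lay n cap o (n + 1)).toFinset ⊆ Finset.range n := fun v hv =>
    Finset.mem_range.2 (lt_of_mem_lay (List.mem_toFinset.1 hv))
  have h3 := Finset.card_le_card h2
  rw [Finset.card_range] at h3
  omega

/-- excess that reaches no free vertex: the Hall condition fails -/
theorem not_hall (ho : ∀ e ∈ o, e.2 < n) (h : exc n cap o ≠ 0) (h' : ¬ovl n cap o n = true) :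
    ∃ S ⊆ Finset.range n, ∑ v ∈ S, cap.getD v 0 < inL o S := by
  classical
  obtain ⟨j, hj, hst⟩ := exists_stable n cap o
  refine ⟨(Finset.range n).filter fun v => v ∉ lay n cap o j, Finset.filter_subset _ _, ?_⟩
  set S := (Finset.range n).filter fun v => v ∉ lay n cap o j with hS
  have hmem : ∀ v, v ∈ S ↔ v < n ∧ v ∉ lay n cap o j := fun v => by simp [hS]
  have h1 : inL o S = o.countP fun e => decide (e.1 ∈ S) := by
    refine List.countP_congr fun e he => ?_
    simp only [decide_eq_true_eq, and_iff_left_iff_imp]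
    intro h1
    rw [hmem] at h1 ⊢
    exact ⟨ho e he, fun h2 => h1.2 (hst _ (mem_lay_succ.2 ⟨h1.1, Or.inr ⟨e, he, rfl, h2⟩⟩))⟩
  rw [h1, countP_tail]
  obtain ⟨x, hx, hx'⟩ := Finset.exists_ne_zero_of_sum_ne_zero h
  refine Finset.sum_lt_sum (fun v hv => ?_) ⟨x, ?_, by omega⟩
  · rw [hmem] at hv
    by_contra hc
    exact hv.2 (lay_mono (Nat.zero_le j) (mem_lay_zero.2 ⟨hv.1, by omega⟩))
  · rw [hmem]
    exact ⟨Finset.mem_range.1 hx,
      fun h2 => h' (ovl_iff.2 ⟨x, lay_mono hj h2, by omega⟩)⟩

theorem onext_cases (n : ℕ) (cap : List ℕ) (o : List (ℕ × ℕ)) :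
    (onext n cap o = o ∧ ¬ovl n cap o n = true) ∨
      ∃ e ∈ o, onext n cap o = flipArc o e ∧ pot n cap (flipArc o e) < pot n cap o := by
  unfold onext
  cases hf : (o.map (flipArc o)).find? fun o' => decide (pot n cap o' < pot n cap o) with
  | none =>
    refine Or.inl ⟨rfl, fun h => ?_⟩
    obtain ⟨e, he, hlt⟩ := exists_flip h
    have := List.find?_eq_none.1 hf _ (List.mem_map_of_mem he)
    simp only [decide_eq_true_eq] at this
    exact this hlt
  | some o' =>
    obtain ⟨e, he, rfl⟩ := List.mem_map.1 (List.mem_of_find?_eq_some hf)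
    exact Or.inr ⟨e, he, rfl, by simpa using List.find?_some hf⟩

theorem iterate_inv {P : List (ℕ × ℕ) → Prop} (hP : ∀ o e, e ∈ o → P o → P (flipArc o e))
    (h : P o) (t : ℕ) : P ((onext n cap)^[t] o) := by
  induction t with
  | zero => exact h
  | succ t ih =>
    rw [Function.iterate_succ_apply']
    obtain ⟨h1, -⟩ | ⟨e, he, h1, -⟩ := onext_cases n cap ((onext n cap)^[t] o)
    · rw [h1]; exact ih
    · rw [h1]; exact hP _ e he ih

theorem iterate_pot (t : ℕ) :
    ¬ovl n cap ((onext n cap)^[t] o) n = true ∨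
      pot n cap ((onext n cap)^[t] o) + t ≤ pot n cap o := by
  have key : ∀ t, (onext n cap ((onext n cap)^[t] o) = (onext n cap)^[t] o ∧
      ¬ovl n cap ((onext n cap)^[t] o) n = true) ∨
      pot n cap ((onext n cap)^[t] o) + t ≤ pot n cap o := by
    intro t
    induction t with
    | zero => exact Or.inr le_rfl
    | succ t ih =>
      rw [Function.iterate_succ_apply']
      obtain ih | ih := ih
      · left; rw [ih.1]; exact ih
      · obtain h1 | ⟨e, -, h1, h2⟩ := onext_cases n cap ((onext n cap)^[t] o)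
        · left; rw [h1.1]; exact h1
        · right; rw [h1]; omega
  exact (key t).imp_left fun h => h.2

theorem pot_lt (n : ℕ) (cap : List ℕ) (o : List (ℕ × ℕ)) :
    pot n cap o < (n + 2) * (o.length + 1) := by
  have h1 := lev_le n cap o
  have h2 : exc n cap o ≤ o.length := by
    calc exc n cap o ≤ ∑ v ∈ Finset.range n, outd o v := Finset.sum_le_sum fun v _ => Nat.sub_le _ _
      _ = _ := (countP_tail o _).symm
      _ ≤ o.length := List.countP_le_length
  have h3 := Nat.mul_le_mul_left (n + 2) h2
  rw [pot, Nat.mul_succ]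
  omega

/-- **Correctness of the Hall test.** -/
theorem hallB_iff {es : List (ℕ × ℕ)} (h : ∀ e ∈ es, e.1 < n ∧ e.2 < n) :
    hallB n cap es = true ↔
      ∀ S ⊆ Finset.range n, inL es S ≤ ∑ v ∈ S, cap.getD v 0 := by
  have hin : ∀ S, inL (orient n cap es) S = inL es S := fun S =>
    iterate_inv (P := fun o => inL o S = inL es S)
      (fun o e he h => by rw [inL_flipArc he, h]) rfl _
  have hlt : ∀ e ∈ orient n cap es, e.1 < n ∧ e.2 < n :=
    iterate_inv (P := fun o => ∀ e ∈ o, e.1 < n ∧ e.2 < n)
      (fun o e he h f hf => by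
        obtain rfl | hf := List.mem_cons.1 hf
        · exact (h e he).symm
        · exact h f (List.mem_of_mem_erase hf)) h _
  rw [hallB, decide_eq_true_eq]
  constructor
  · intro h0 S hS
    rw [← hin]
    exact hall_of_exc h0 hS
  · intro hh
    by_contra h0
    obtain h1 | h1 := iterate_pot (n := n) (cap := cap) (o := es) ((n + 2) * (es.length + 1))
    · obtain ⟨S, hS, hS'⟩ := not_hall (fun e he => (hlt e he).2) h0 h1
      rw [hin] at hS'
      exact absurd (hh S hS) (not_le.2 hS')
    · have := pot_lt n cap es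
      omega

/-! ### Polynomial time -/

universe u
variable {α : Type u} [Enc α]

@[fun_prop] theorem outd_pt {o : α → List (ℕ × ℕ)} {v : α → ℕ} (ho : PT o) (hv : PT v) :
    PT fun a => outd (o a) (v a) := by
  unfold outd; fun_prop

@[fun_prop] theorem lstep_pt {n : α → ℕ} {o : α → List (ℕ × ℕ)} {R : α → List ℕ} (hn : PT n)
    (hb : PB n) (ho : PT o) (hR : PT R) : PT fun a => lstep (n a) (o a) (R a) := by
  unfold lstep; fun_prop

@[fun_prop] theorem lay_pt {n j : α → ℕ} {cap : α → List ℕ} {o : α → List (ℕ × ℕ)} (hn : PT n)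
    (hb : PB n) (hc : PT cap) (ho : PT o) (hj : PT j) (hjb : PB j) :
    PT fun a => lay (n a) (cap a) (o a) (j a) := by
  refine PT.iterate (f := fun a R => lstep (n a) (o a) R) hj hjb (by unfold lay0; fun_prop)
    (by fun_prop) (B := fun a => sz (List.range (n a))) (by fun_prop) fun a k _ => ?_
  exact sz_sublist (lay_sublist k)

@[fun_prop] theorem ovl_pt {n j : α → ℕ} {cap : α → List ℕ} {o : α → List (ℕ × ℕ)} (hn : PT n)
    (hb : PB n) (hc : PT cap) (ho : PT o) (hj : PT j) (hjb : PB j) :
    PT fun a => ovl (n a) (cap a) (o a) (j a) := by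
  unfold ovl; fun_prop

@[fun_prop] theorem exc_pt {n : α → ℕ} {cap : α → List ℕ} {o : α → List (ℕ × ℕ)} (hn : PT n)
    (hb : PB n) (hc : PT cap) (ho : PT o) : PT fun a => exc (n a) (cap a) (o a) := by
  unfold exc; fun_prop

@[fun_prop] theorem lev_pt {n : α → ℕ} {cap : α → List ℕ} {o : α → List (ℕ × ℕ)} (hn : PT n)
    (hb : PB n) (hc : PT cap) (ho : PT o) : PT fun a => lev (n a) (cap a) (o a) := by
  unfold lev
  refine PT.sum_range' (by fun_prop) (by fun_prop) (by fun_prop) ?_
  have hj : PB fun p : {p : α × ℕ // p.2 < n p.1 + 1} => p.1.2 :=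
    PB.idx (n := fun a => n a + 1) (by fun_prop)
  fun_prop

@[fun_prop] theorem pot_pt {n : α → ℕ} {cap : α → List ℕ} {o : α → List (ℕ × ℕ)} (hn : PT n)
    (hb : PB n) (hc : PT cap) (ho : PT o) : PT fun a => pot (n a) (cap a) (o a) := by
  unfold pot; fun_prop

@[fun_prop] theorem onext_pt {n : α → ℕ} {cap : α → List ℕ} {o : α → List (ℕ × ℕ)} (hn : PT n)
    (hb : PB n) (hc : PT cap) (ho : PT o) : PT fun a => onext (n a) (cap a) (o a) := by
  unfold onext flipArc; fun_prop

theorem sz_flipArc {e : ℕ × ℕ} (he : e ∈ o) : sz (flipArc o e) = sz o := by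
  rw [PT.sz_perm (List.perm_cons_erase he), flipArc, sz_cons, sz_cons, sz_prod, sz_prod e]
  simp only [Prod.fst_swap, Prod.snd_swap]
  omega

@[fun_prop] theorem orient_pt {n : α → ℕ} {cap : α → List ℕ} {es : α → List (ℕ × ℕ)} (hn : PT n)
    (hb : PB n) (hc : PT cap) (he : PT es) : PT fun a => orient (n a) (cap a) (es a) := by
  refine PT.iterate (f := fun a o => onext (n a) (cap a) o) (by fun_prop) (by fun_prop) he
    (by fun_prop) (B := fun a => sz (es a)) (by fun_prop) fun a k _ => ?_
  exact (iterate_inv (P := fun o => sz o = sz (es a))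
    (fun o e he h => by rw [sz_flipArc he, h]) rfl k).le

@[fun_prop] theorem hallB_pt {n : α → ℕ} {cap : α → List ℕ} {es : α → List (ℕ × ℕ)} (hn : PT n)
    (hb : PB n) (hc : PT cap) (he : PT es) : PT fun a => hallB (n a) (cap a) (es a) := by
  unfold hallB; fun_prop

/-! ### The test of the greedy algorithm for `(k, k)`-sparsity -/

/-- capacities `0` at `v`, `k - 1` at `u` and `k` elsewhere -/
def capL (n k u v : ℕ) : List ℕ :=
  (List.range n).map fun w => if w = v then 0 else if w = u then k - 1 else k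

/-- may the edge `u v` be added to the sparse list `F`? -/
def addB (n k : ℕ) (F : List (ℕ × ℕ)) (u v : ℕ) : Bool := hallB n (capL n k u v) F

@[fun_prop] theorem addB_pt {n k u v : α → ℕ} {F : α → List (ℕ × ℕ)} (hn : PT n) (hb : PB n)
    (hk : PT k) (hF : PT F) (hu : PT u) (hv : PT v) :
    PT fun a => addB (n a) (k a) (F a) (u a) (v a) := by
  unfold addB capL; fun_prop

theorem sum_capL {k u v : ℕ} (hk : 1 ≤ k) (huv : u ≠ v) {S : Finset ℕ}
    (hS : S ⊆ Finset.range n) :
    ∑ w ∈ S, (capL n k u v).getD w 0 + (if u ∈ S then 1 else 0) + (if v ∈ S then k else 0) =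
      k * S.card := by
  have key : ∀ w ∈ S, (capL n k u v).getD w 0 + (if u = w then 1 else 0) +
      (if v = w then k else 0) = k := by
    intro w hw
    have hw' : w < n := Finset.mem_range.1 (hS hw)
    have : (capL n k u v).getD w 0 = if w = v then 0 else if w = u then k - 1 else k := by
      simp [capL, List.getD_eq_getElem?_getD, hw']
    rw [this]
    by_cases a : w = v
    · subst a; simp [huv]
    · by_cases b : w = u
      · subst b; simp [a, Ne.symm a]; omega
      · simp [a, b, Ne.symm a, Ne.symm b]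
  have := Finset.sum_congr rfl key
  simpa [Finset.sum_add_distrib, Finset.sum_ite_eq, mul_comm] using this

/-- For a sparse list `F`: the test accepts iff no tight set contains `u` and `v`. -/
theorem addB_iff {k u v : ℕ} {F : List (ℕ × ℕ)} (hF : ∀ e ∈ F, e.1 < n ∧ e.2 < n) (hk : 1 ≤ k)
    (huv : u ≠ v) (hsp : ∀ S ⊆ Finset.range n, S.Nonempty → inL F S + k ≤ k * S.card) :
    addB n k F u v = true ↔
      ∀ S ⊆ Finset.range n, u ∈ S → v ∈ S → inL F S + k < k * S.card := by
  rw [addB, hallB_iff hF]
  constructor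
  · intro h S hS hu hv
    have h1 := h S hS
    have h2 := sum_capL hk huv hS
    rw [if_pos hu, if_pos hv] at h2
    omega
  · intro h S hS
    have h2 := sum_capL hk huv hS
    rcases S.eq_empty_or_nonempty with rfl | hne
    · simp [inL]
    have h1 := hsp S hS hne
    by_cases hu : u ∈ S <;> by_cases hv : v ∈ S
    · have := h S hS hu hv
      rw [if_pos hu, if_pos hv] at h2
      omega
    · rw [if_pos hu, if_neg hv] at h2
      omega
    · rw [if_neg hu, if_pos hv] at h2
      omega
    · rw [if_neg hu, if_neg hv] at h2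
      omega

end Crest.Agent.X37.Gr
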